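import Vale.Agent.P168W95.Main

namespace Vale.Agent.Results.P168.ARandomModel

open MeasureTheory ProbabilityTheory Filter Topology Vale.Agent.P168W95
open scoped NNReal

theorem result (Ω₀ : Type*) [MeasurableSpace Ω₀] (P₀ : Measure Ω₀) [IsProbabilityMeasure P₀]
    (h : Ω₀ → ℝ) :
    (∀ (K : ℕ) (lam : ℝ≥0) (θ : Ω₀ → Fn K) (a b : Ω₀ → ℝ) (f : Fin K → Ω₀ → Bool → ℝ),
      IsModel P₀ θ a b f h →
      (∀ (A B : Type) (M : ℕ) (c : ℝ≥0), ∃ (Ω : Type) (_ : MeasurableSpace Ω) (P : Measure Ω)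
        (D : Sample Ω K A B (M + 1)), D.Valid P c (P₀.map θ) (P₀.map h)) ∧
      (∃ (Ω : Type) (_ : MeasurableSpace Ω) (P : Measure Ω) (D : Sample Ω K ℕ Unit K),
        D.Valid P (K * lam) (P₀.map θ) (P₀.map h)) ∧
      ∀ (Ω : ℕ → Type*) [∀ N, MeasurableSpace (Ω N)] (P : ∀ N, Measure (Ω N))
        (D : ∀ N, Sample (Ω N) K (ℕ × Fin K) (Fin (N + 1)) (N + 1)),
        (∀ N, (D N).Valid (P N) (lam * (N + 1 : ℕ)) (P₀.map θ) (P₀.map h)) →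
      ∀ (Ω₁ : Type*) [MeasurableSpace Ω₁] (P₁ : Measure Ω₁) (D₁ : Sample Ω₁ K ℕ Unit K),
        D₁.Valid P₁ (K * lam) (P₀.map θ) (P₀.map h) →
      ∀ (Ω₂ : Type*) [MeasurableSpace Ω₂] (P₂ : Measure Ω₂) (D₂ : Sample Ω₂ K Empty Empty 1),
        D₂.Valid P₂ ((K - 1 : ℕ) * lam) (P₀.map θ) (P₀.map h) →
      (∀ N, Integrable (logZ (D N)) (P N)) ∧
      (∀ r m x, IsTrial r m x →
        Integrable (logBottom r m x (bigU D₁)) (P₁.prod (levelLaw K)) ∧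
        Integrable (logBottom r m x (bigV D₂)) (P₂.prod (levelLaw K))) ∧
      ⨅ r, phi P₁ D₁ P₂ D₂ r ≤ liminf (fun N => (pressure (P N) (D N) : EReal)) atTop ∧
      (PTIndep P₀ b f → ∃ L : ℝ, Tendsto (fun N => pressure (P N) (D N)) atTop (𝓝 L) ∧
        ⨅ r, phi P₁ D₁ P₂ D₂ r = (L : EReal))) ∧
    ∀ (β : ℝ) (g : Ω₀ → ℝ), Measurable g → Integrable g P₀ → IdentDistrib g (-g) P₀ P₀ →
      Measurable h → Integrable h P₀ →
      ∃ (a b : Ω₀ → ℝ) (f : Fin 2 → Ω₀ → Bool → ℝ),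
        IsModel P₀ (fun ω σ => β * g ω * spin (σ 0) * spin (σ 1)) a b f h ∧ PTIndep P₀ b f :=
  ⟨fun K lam _ _ _ _ hM => ⟨fun A B M c => hM.samples A B (M + 1) c,
      have : NeZero K := ⟨by have := hM.two_le; omega⟩
      hM.samples ℕ Unit K _,
      fun _ _ P D hD _ _ P₁ D₁ h₁ _ _ P₂ D₂ h₂ => hM.main lam P D hD P₁ D₁ h₁ P₂ D₂ h₂⟩,
    fun β _ hg hgi hs hh hhi => ⟨_, _, _, viana_bray β hg hgi hs hh hhi⟩⟩

end Vale.Agent.Results.P168.ARandomModel
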